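import Vale.Agent.P006.DISP.Expand
import Vale.Agent.P006.H845.Sums
import Mathlib.Analysis.SpecialFunctions.Gamma.Beta

/-!
P006, block DISP: the dispersion theorem from the three inputs, and the consumer lemma.
-/

namespace Vale.Agent.P006.DISP

open scoped BigOperators Classical
open Vale.Agent.P006 Finset MeasureTheory
open Vale.Agent.P006.V1 (ch cop)

/-! ### properties of the weight -/

theorem Vx_nonneg {V0 : ℝ → ℝ} (h : Bump V0) (ξ u0 u : ℝ) : 0 ≤ Vx V0 ξ u0 u := h.nonneg _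

theorem Vx_eq_zero {V0 : ℝ → ℝ} (h : Bump V0) {ξ u0 : ℝ} (hξ : 0 < ξ) (hξ1 : ξ ≤ 1)
    (hu : u0 ≤ 2) (u : ℝ) (h4 : 4 < u) : Vx V0 ξ u0 u = 0 := by
  by_contra hne
  have h1 := (h.supp _ hne).2
  rw [div_le_iff₀ hξ] at h1
  linarith

theorem Vx_one {V0 : ℝ → ℝ} (h : Bump V0) {ξ u0 u : ℝ} (hξ : 0 < ξ) (h1 : u0 ≤ u)
    (h2 : u ≤ u0 + ξ) : Vx V0 ξ u0 u = 1 := by
  apply h.one
  · exact div_nonneg (by linarith) hξ.le
  · rw [div_le_one hξ]; linarith

theorem wt_nonneg {V : ℝ → ℝ} (hV : ∀ u, 0 ≤ V u) (B : ℝ) (W b : O) : 0 ≤ wt V B W b := by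
  rw [wt]; split_ifs <;> [exact hV _; exact le_rfl]

/-! ### the consumer lemma -/

/-- for squarefree primary `b`: `|∑_a α_a w(ab)| = |X_b - Y_b|` -/
theorem norm_sum_wf_eq (α : O → ℂ) (A : ℝ) {b : O} (hb : InP b) :
    ‖∑ a ∈ SPB (2 * A), α a * wf (a * b)‖ = ‖Xb α A b - Yb α A b‖ := by
  have hg : gt 1 b * (starRingEnd ℂ) (gt 1 b) = 1 := by
    rw [Complex.mul_conj, Complex.normSq_eq_norm_sq, norm_gt_one hb]; simp
  have e : ∑ a ∈ SPB (2 * A), α a * wf (a * b) = gt 1 b * (Xb α A b - Yb α A b) := by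
    rw [Xb, Yb_eq, ← sum_sub_distrib, mul_sum]
    refine sum_congr rfl fun a ha => ?_
    have hA := (mem_SPB_iff.1 ha).1
    by_cases hc : IsCoprime b a
    · have e2 : cop a b = 1 := by rw [cop, if_pos hc]
      have hs : ch a b = toC (sym a b) := by rw [ch, recip hb.1 hA.1]
      rw [wf_mul hA hb hc.symm, e2, hs, Th_inP hb]
      push_cast
      generalize (((N b : ℝ) ^ (-(1 / 6) : ℝ) : ℝ) : ℂ) = x
      generalize (((N a : ℝ) ^ (-(1 / 6) : ℝ) : ℝ) : ℂ) = y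
      linear_combination (α a * cStar * y * x) * hg
    · have e2 : cop a b = 0 := by rw [cop, if_neg hc]
      have hs : ch a b = 0 := by rw [ch, sym_eq_zero.2 hc, map_zero]
      rw [e2, hs, wf_mul_of_not_coprime hA.1 hb.1 (fun h => hc h.symm)]
      simp
  rw [e, norm_mul, norm_gt_one hb, one_mul]

/-- sums over a block of squarefree `b` are bounded by the dispersion sum -/
theorem block_le_DS {V : ℝ → ℝ} (hV : ∀ u, 0 ≤ V u) {B : ℝ} (W : O)
    (α : O → ℂ) (A : ℝ) (J : Finset O)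
    (hJ : ∀ b ∈ J, InP b ∧ IsCoprime b W ∧ (N b : ℝ) ≤ 4 * B ∧ 1 ≤ V (N b / B)) :
    ∑ b ∈ J, ‖∑ a ∈ SPB (2 * A), α a * wf (a * b)‖ ^ 2 ≤ DS V B W α A := by
  rw [DS]
  refine le_trans ?_ (sum_le_sum_of_subset_of_nonneg (s := J) ?_ ?_)
  · refine sum_le_sum fun b hb => ?_
    obtain ⟨h1, h2, h3, h4⟩ := hJ b hb
    rw [norm_sum_wf_eq α A h1, wt, if_pos h2]
    exact le_mul_of_one_le_left (by positivity) h4
  · intro b hb
    obtain ⟨h1, h2, h3, h4⟩ := hJ b hb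
    rw [mem_PB]; exact ⟨h1.1, h3⟩
  · intro b _ _
    exact mul_nonneg (wt_nonneg hV _ _ _) (by positivity)

/-! ### constants -/

theorem Gamma_third : Real.Gamma (1 / 3) * Real.Gamma (2 / 3) = 2 * Real.pi / Real.sqrt 3 := by
  have h := Real.Gamma_mul_Gamma_one_sub (1 / 3)
  have e : (1 - 1 / 3 : ℝ) = 2 / 3 := by norm_num
  rw [e, show Real.pi * (1 / 3) = Real.pi / 3 by ring, Real.sin_pi_div_three] at h
  rw [h]
  field_simp

theorem kap0_eq : kap0 = cStar ^ 2 * kapP := by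
  have hG : 0 < Real.Gamma (2 / 3) := Real.Gamma_pos_of_pos (by norm_num)
  have h3 : 0 < Real.sqrt 3 := Real.sqrt_pos.2 (by norm_num)
  have h := Gamma_third
  have hp : (2 * Real.pi) ^ (4 / 3 : ℝ) = ((2 * Real.pi) ^ (2 / 3 : ℝ)) ^ 2 := by
    rw [← Real.rpow_natCast, ← Real.rpow_mul (by positivity)]
    norm_num
  have h1 : Real.Gamma (1 / 3) = 2 * Real.pi / (Real.sqrt 3 * Real.Gamma (2 / 3)) := by
    field_simp
    field_simp at h
    linarith
  rw [kap0, cStar, kapP, hp, h1]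
  field_simp
  ring

theorem kapP_nonneg : 0 ≤ kapP := by unfold kapP; positivity

theorem dens_nonneg (D : O) : 0 ≤ dens D := by
  rw [dens]
  refine prod_nonneg fun p hp => ?_
  have h2 : (2 : ℝ) ≤ N p := by
    have := (mem_filter.1 hp).2
    exact_mod_cast Prime.two_le_N this
  have : 1 / (N p : ℝ) ≤ 1 := by rw [div_le_one (by linarith)]; linarith
  linarith

theorem dens_le_one (D : O) : dens D ≤ 1 := by
  rw [dens]
  refine prod_le_one (fun p hp => ?_) fun p hp => ?_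
  · have h2 : (2 : ℝ) ≤ N p := by
      have := (mem_filter.1 hp).2
      exact_mod_cast Prime.two_le_N this
    have : 1 / (N p : ℝ) ≤ 1 := by rw [div_le_one (by linarith)]; linarith
    linarith
  · have : 0 ≤ 1 / (N p : ℝ) := by positivity
    linarith

theorem dens_mul {W a : O} (hW : Primary W) (ha : Primary a) (h : IsCoprime a W) :
    dens (W * a) = dens W * dens a := by
  rw [dens, pdv_mul hW ha, prod_union, dens, dens]
  rw [Finset.disjoint_left]
  intro p h1 h2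
  rw [mem_pdv hW.ne_zero] at h1
  rw [mem_pdv ha.ne_zero] at h2
  exact h1.2.1.not_isUnit (h.isUnit_of_dvd' h2.2.2 h1.2.2)

theorem integral_Vx {V0 : ℝ → ℝ} (ξ u0 : ℝ) (hξ : 0 < ξ) :
    ∫ u : ℝ, Vx V0 ξ u0 u = ξ * ∫ x : ℝ, V0 x := by
  unfold Vx
  have h := integral_sub_right_eq_self (μ := volume) (fun u : ℝ => V0 (u / ξ)) u0
  rw [h, Measure.integral_comp_div (fun x => V0 x) ξ, abs_of_pos hξ, smul_eq_mul]

end Vale.Agent.P006.DISP
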