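import Vale.Agent.P006.DISP.Defs
import Mathlib.MeasureTheory.Integral.IntervalIntegral.Basic
import Mathlib.Analysis.SpecialFunctions.Pow.Complex

/-!
P006, block DISP (helper359): statements of the inputs and of the dispersion theorem.
-/

namespace Vale.Agent.P006.DISP

open scoped BigOperators Classical
open Vale.Agent.P006 Finset MeasureTheory
open Vale.Agent.P006.V1 (ch cop)

/-- `κ ≠ 0` is not a cube in `O` -/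
def NonCube (κ : O) : Prop := κ ≠ 0 ∧ ¬ ∃ e : O, κ = e ^ 3

/-- `∑_r α(jr) (N(jr)/A)^(σ+it) χ_r(κ)`, `jr` squarefree primary of norm `≤ 2A` -/
noncomputable def csum (α : O → ℂ) (A σ t : ℝ) (j κ : O) : ℂ :=
  ∑ r ∈ SPB (2 * A / N j),
    α (j * r) * ((((N (j * r) : ℝ) / A : ℝ) : ℂ) ^ ((σ : ℂ) + t * Complex.I)) * ch r κ

/-- `∫ (1+t²)⁻¹ |csum|² dt` -/
noncomputable def csumI (α : O → ℂ) (A σ : ℝ) (j κ : O) : ℝ :=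
  ∫ t : ℝ, (1 + t ^ 2)⁻¹ * ‖csum α A σ t j κ‖ ^ 2

/-- the contribution of `j, κ`; weight `x^(-1/6)` with twist exponent `σ = -1/3` for
`x = N κ / K ≤ 1`, weight `x^(-2)` with `σ = 3/2` for `x > 1`; `K = A²/B`. -/
noncomputable def ncTerm (α : O → ℂ) (A B : ℝ) (j κ : O) : ℝ :=
  if NonCube κ then
    (N (EuclideanDomain.gcd j κ) : ℝ) *
      (if (N κ : ℝ) * B ≤ A ^ 2 then
        ((N κ : ℝ) * B / A ^ 2) ^ (-(1 / 6) : ℝ) * csumI α A (-(1 / 3)) j κ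
      else ((N κ : ℝ) * B / A ^ 2) ^ (-2 : ℝ) * csumI α A (3 / 2) j κ)
  else 0

/-- the non-cube functional `(B/A) ∑_j ∑_κ ...` -/
noncomputable def NCf (α : O → ℂ) (A B : ℝ) : ℝ :=
  (B / A) * ∑ j ∈ SPB (2 * A), ∑' κ : O, ncTerm α A B j κ

/-- kernel of the second error term, for `a₁ ≠ a₂` -/
noncomputable def emk (a1 a2 : O) : ℝ :=
  (N (EuclideanDomain.gcd a1 a2) : ℝ) / Real.sqrt (N a1 * N a2) * (tau a1 * tau a2)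

/-- `I(V) = ∫ V(u) u^(-1/3) du` -/
noncomputable def IVr (V : ℝ → ℝ) : ℝ := ∫ u in Set.Ioi (0 : ℝ), V u * u ^ (-(1 / 3) : ℝ)

/-- `2π/(9√3)`: density of primary elements -/
noncomputable def kapP : ℝ := 2 * Real.pi / (9 * Real.sqrt 3)

/-- `κ₀ = (2π)^(4/3) Γ(1/3) / (81 Γ(2/3))` -/
noncomputable def kap0 : ℝ :=
  (2 * Real.pi) ^ (4 / 3 : ℝ) * Real.Gamma (1 / 3) / (81 * Real.Gamma (2 / 3))

/-- `∑ α_{a₁} conj α_{a₂} N(a₁a₂)^(-1/6) ∏_{p ∣ a₁a₂}(1-1/Np)` -/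
noncomputable def Qform (α : O → ℂ) (A : ℝ) : ℝ :=
  (∑ a1 ∈ SPB (2 * A), ∑ a2 ∈ SPB (2 * A), α a1 * (starRingEnd ℂ) (α a2) *
    ((((N a1 : ℝ) ^ (-(1 / 6) : ℝ) * (N a2 : ℝ) ^ (-(1 / 6) : ℝ) * dens (a1 * a2) : ℝ)) : ℂ)).re

/-- **V1** (helper333): the first dispersion sum. -/
def V1Hyp : Prop :=
  ∀ V0 : ℝ → ℝ, Bump V0 → ∃ C1 : ℝ, 0 ≤ C1 ∧ ∀ W : O, InP W → ∃ C c : ℝ, 0 ≤ C ∧ 0 ≤ c ∧
    ∀ ξ u0 A B : ℝ, 0 < ξ → ξ ≤ 1 → 1 ≤ u0 → u0 ≤ 2 → 1 ≤ A → 1 ≤ B →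
    ∀ α : O → ℂ, Adm W A α →
      |V1s (Vx V0 ξ u0) B W α A
        - kap0 * IVr (Vx V0 ξ u0) * dens W * B ^ (2 / 3 : ℝ) * Qform α A
        - kapP * dens W * B * (∫ u : ℝ, Vx V0 ξ u0 u) * ∑ a ∈ SPB (2 * A), ‖α a‖ ^ 2 * dens a|
      ≤ C1 * ξ ^ (-(1 / 2) : ℝ) * B *
          (∑ a1 ∈ SPB (2 * A), ∑ a2 ∈ SPB (2 * A),
            if a1 = a2 then ‖α a1‖ ^ 2 * (tau a1 : ℝ) ^ 2 * (A * B) ^ (-(1 / 3) : ℝ)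
            else ‖α a1‖ * ‖α a2‖ * emk a1 a2)
        + C * ξ ^ (-c) * NCf α A B

/-- **CM2** (helper627): `∑_{b primary, (b,D)=1} V(N b/B) |Θ(b)|²`. -/
def V3Hyp : Prop :=
  ∀ V0 : ℝ → ℝ, Bump V0 → ∃ C c : ℝ, 0 ≤ C ∧ 0 ≤ c ∧
    ∀ ξ u0 B : ℝ, 0 < ξ → ξ ≤ 1 → 1 ≤ u0 → u0 ≤ 2 → 1 ≤ B → ∀ D : O, Primary D →
      |T3 (Vx V0 ξ u0) B D - kapP * dens D * B ^ (2 / 3 : ℝ) * IVr (Vx V0 ξ u0)|
        ≤ C * ξ ^ (-c) * tau D * B ^ (1 / 3 : ℝ)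

/-- **V23** (helper26): mean value of `T23` over `A < N a₁ ≤ 2A`, for each `a₂`. -/
def V23Hyp : Prop :=
  ∀ V0 : ℝ → ℝ, Bump V0 → ∀ W : O, InP W → ∀ ε : ℝ, 0 < ε → ∃ C c : ℝ, 0 ≤ C ∧ 0 ≤ c ∧
    ∀ ξ u0 A B : ℝ, 0 < ξ → ξ ≤ 1 → 1 ≤ u0 → u0 ≤ 2 → 1 ≤ A → 1 ≤ B →
    ∀ a2 ∈ SPB (2 * A),
      ∑ a1 ∈ (SPB (2 * A)).filter (fun a => A < (N a : ℝ)), ‖T23 (Vx V0 ξ u0) B W a1 a2‖
        ≤ C * ξ ^ (-c) * (A * B) ^ ε * (A * B ^ (1 / 3 : ℝ))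

/-- **DISP**: the dispersion theorem. `R` is a fixed nonnegative kernel (independent of `α`), so
the bound can be summed over families of coefficients with disjoint supports. -/
def DispStmt : Prop :=
  ∀ V0 : ℝ → ℝ, Bump V0 → ∃ C0 : ℝ, 0 ≤ C0 ∧ ∀ W : O, InP W → ∀ ε : ℝ, 0 < ε →
    ∃ C c : ℝ, 0 ≤ C ∧ 0 ≤ c ∧
    ∀ ξ u0 A B : ℝ, 0 < ξ → ξ ≤ 1 → 1 ≤ u0 → u0 ≤ 2 → 1 ≤ A → 1 ≤ B →
    ∃ R : O → O → ℝ, (∀ a1 a2, 0 ≤ R a1 a2) ∧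
      (∑ a1 ∈ SPB (2 * A), ∑ a2 ∈ SPB (2 * A), R a1 a2
        ≤ C * ξ ^ (-c) * (A * B) ^ ε * (A ^ (11 / 6 : ℝ) * B ^ (1 / 3 : ℝ) + (A * B) ^ (2 / 3 : ℝ))) ∧
      ∀ α : O → ℂ, Adm W A α →
        DS (Vx V0 ξ u0) B W α A
          ≤ C0 * dens W * (ξ * B) * ∑ a ∈ SPB (2 * A), ‖α a‖ ^ 2
            + C0 * ξ ^ (-(1 / 2) : ℝ) * B *
              (∑ a1 ∈ SPB (2 * A), ∑ a2 ∈ SPB (2 * A),
                if a1 = a2 then 0 else ‖α a1‖ * ‖α a2‖ * emk a1 a2)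
            + ∑ a1 ∈ SPB (2 * A), ∑ a2 ∈ SPB (2 * A), ‖α a1‖ * ‖α a2‖ * R a1 a2
            + C * ξ ^ (-c) * NCf α A B

end Vale.Agent.P006.DISP
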