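import Vale.Agent.P006.DISP.Assemble

/-!
P006, block DISP: the dispersion theorem `DispStmt` from `V1Hyp`, `V3Hyp`, `V23Hyp`.
-/

namespace Vale.Agent.P006.DISP

open scoped BigOperators Classical
open Vale.Agent.P006 Finset MeasureTheory

theorem xi_le {ξ c c' : ℝ} (hξ : 0 < ξ) (hξ1 : ξ ≤ 1) (h : c ≤ c') : ξ ^ (-c) ≤ ξ ^ (-c') :=
  Real.rpow_le_rpow_of_exponent_ge hξ hξ1 (by linarith)

theorem NCf_nonneg {α : O → ℂ} {A B : ℝ} (hA : 0 < A) (hB : 0 < B) : 0 ≤ NCf α A B := by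
  unfold NCf
  refine mul_nonneg (by positivity) (sum_nonneg fun j _ => tsum_nonneg fun κ => ?_)
  unfold ncTerm csumI
  split_ifs
  · refine mul_nonneg (by positivity) (mul_nonneg (by positivity) ?_)
    exact integral_nonneg fun t => by positivity
  · refine mul_nonneg (by positivity) (mul_nonneg (by positivity) ?_)
    exact integral_nonneg fun t => by positivity
  · exact le_rfl

theorem em_nonneg (α : O → ℂ) (A : ℝ) : 0 ≤ ∑ a1 ∈ SPB (2 * A), ∑ a2 ∈ SPB (2 * A),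
    if a1 = a2 then 0 else ‖α a1‖ * ‖α a2‖ * emk a1 a2 := by
  refine sum_nonneg fun a1 _ => sum_nonneg fun a2 _ => ?_
  split_ifs
  · exact le_rfl
  · unfold emk; positivity

theorem sq_rpow_half {A : ℝ} (hA : 0 < A) (ε : ℝ) : (A * A) ^ (ε / 2) = A ^ ε := by
  rw [← sq, ← Real.rpow_natCast, ← Real.rpow_mul hA.le]
  congr 1
  push_cast
  ring

theorem piece1 {ξ c c4 C4 A B ε X2 : ℝ} (hξ : 0 < ξ) (hξ1 : ξ ≤ 1) (h : c4 ≤ c) (hC4 : 0 ≤ C4)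
    (hA : 1 ≤ A) (hB : 1 ≤ B) (hX2 : 0 ≤ X2) :
    16 * (A * A ^ (-(1 / 6) : ℝ) * (C4 * ξ ^ (-c4) * (A * B) ^ ε * (A * B ^ (1 / 3 : ℝ)))) ≤
      16 * C4 * (ξ ^ (-c) * (A * B) ^ ε * (A ^ (11 / 6 : ℝ) * B ^ (1 / 3 : ℝ) + X2)) := by
  have hA0 : 0 < A := by linarith
  have hB0 : 0 < B := by linarith
  have e2 : A * A ^ (-(1 / 6) : ℝ) * A = A ^ (11 / 6 : ℝ) := by
    nth_rewrite 1 [← Real.rpow_one A]
    nth_rewrite 3 [← Real.rpow_one A]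
    rw [← Real.rpow_add hA0, ← Real.rpow_add hA0]
    norm_num
  have := xi_le hξ hξ1 h
  calc 16 * (A * A ^ (-(1 / 6) : ℝ) * (C4 * ξ ^ (-c4) * (A * B) ^ ε * (A * B ^ (1 / 3 : ℝ))))
      = 16 * C4 * (ξ ^ (-c4) * (A * B) ^ ε *
        ((A * A ^ (-(1 / 6) : ℝ) * A) * B ^ (1 / 3 : ℝ))) := by ring
    _ ≤ 16 * C4 * (ξ ^ (-c) * (A * B) ^ ε * (A ^ (11 / 6 : ℝ) * B ^ (1 / 3 : ℝ) + X2)) := by
        rw [e2]
        gcongr
        linarith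

theorem piece2 {ξ c c3 C3 Ct A B ε X2 NW : ℝ} (hξ : 0 < ξ) (hξ1 : ξ ≤ 1) (h : c3 ≤ c)
    (hC3 : 0 ≤ C3) (hCt : 0 ≤ Ct) (hA : 1 ≤ A) (hB : 1 ≤ B) (hX2 : 0 ≤ X2) (hNW : 0 ≤ NW)
    (hε : 0 < ε) :
    64 * (A * A * (A ^ (-(1 / 6) : ℝ) * A ^ (-(1 / 6) : ℝ)) *
      (C3 * ξ ^ (-c3) * B ^ (1 / 3 : ℝ) * (Ct * (NW * (2 * A * (2 * A))) ^ (ε / 2)))) ≤
      64 * (C3 * (Ct * (NW * 4) ^ (ε / 2))) *
        (ξ ^ (-c) * (A * B) ^ ε * (A ^ (11 / 6 : ℝ) * B ^ (1 / 3 : ℝ) + X2)) := by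
  have hA0 : 0 < A := by linarith
  have hB0 : 0 < B := by linarith
  have e1 : (NW * (2 * A * (2 * A))) ^ (ε / 2) = (NW * 4) ^ (ε / 2) * A ^ ε := by
    rw [← sq_rpow_half hA0, ← Real.mul_rpow (by positivity) (by positivity)]
    congr 1
    ring
  have e2 : A * A * (A ^ (-(1 / 6) : ℝ) * A ^ (-(1 / 6) : ℝ)) = A ^ (5 / 3 : ℝ) := by
    have : A * A = A ^ (2 : ℝ) := by rw [Real.rpow_two]; ring
    rw [this, ← Real.rpow_add hA0, ← Real.rpow_add hA0]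
    norm_num
  have e3 : A ^ (5 / 3 : ℝ) ≤ A ^ (11 / 6 : ℝ) :=
    Real.rpow_le_rpow_of_exponent_le hA (by norm_num)
  have hAε : A ^ ε ≤ (A * B) ^ ε := by
    gcongr
    nlinarith
  rw [e1, e2]
  have := xi_le hξ hξ1 h
  have h5 : A ^ (5 / 3 : ℝ) * B ^ (1 / 3 : ℝ) ≤ A ^ (11 / 6 : ℝ) * B ^ (1 / 3 : ℝ) + X2 := by
    have : A ^ (5 / 3 : ℝ) * B ^ (1 / 3 : ℝ) ≤ A ^ (11 / 6 : ℝ) * B ^ (1 / 3 : ℝ) := by
      gcongr
    linarith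
  calc _ = 64 * (C3 * (Ct * (NW * 4) ^ (ε / 2))) *
        (ξ ^ (-c3) * A ^ ε * (A ^ (5 / 3 : ℝ) * B ^ (1 / 3 : ℝ))) := by ring
    _ ≤ _ := by gcongr

theorem piece3 {ξ c C1 Ct A B ε X1 : ℝ} (hξ : 0 < ξ) (hξ1 : ξ ≤ 1) (h : 1 / 2 ≤ c)
    (hC1 : 0 ≤ C1) (hCt : 0 ≤ Ct) (hA : 1 ≤ A) (hB : 1 ≤ B) (hX1 : 0 ≤ X1) (hε : 0 < ε) :
    8 * (A * (C1 * ξ ^ (-(1 / 2) : ℝ) * B * (A * B) ^ (-(1 / 3) : ℝ) *
      (Ct * (2 * A) ^ (ε / 2)) ^ 2)) ≤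
      8 * (C1 * (Ct * 2 ^ (ε / 2)) ^ 2) * (ξ ^ (-c) * (A * B) ^ ε *
        (X1 + (A * B) ^ (2 / 3 : ℝ))) := by
  have hA0 : 0 < A := by linarith
  have hB0 : 0 < B := by linarith
  have hAB0 : 0 < A * B := by positivity
  have e1 : (Ct * (2 * A) ^ (ε / 2)) ^ 2 = (Ct * 2 ^ (ε / 2)) ^ 2 * A ^ ε := by
    have e0 : A ^ ε = A ^ (ε / 2) * A ^ (ε / 2) := by
      rw [← Real.rpow_add hA0]; congr 1; ring
    rw [Real.mul_rpow (by norm_num) hA0.le, e0]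
    ring
  have e2 : A * B * (A * B) ^ (-(1 / 3) : ℝ) = (A * B) ^ (2 / 3 : ℝ) := by
    nth_rewrite 1 [← Real.rpow_one (A * B)]
    rw [← Real.rpow_add hAB0]
    norm_num
  have hAε : A ^ ε ≤ (A * B) ^ ε := by
    gcongr
    nlinarith
  have := xi_le hξ hξ1 h
  rw [e1]
  calc _ = 8 * (C1 * (Ct * 2 ^ (ε / 2)) ^ 2) *
        (ξ ^ (-(1 / 2) : ℝ) * A ^ ε * (A * B * (A * B) ^ (-(1 / 3) : ℝ))) := by ring
    _ ≤ _ := by
        rw [e2]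
        gcongr
        linarith

theorem dispStmt_of (h1 : V1Hyp) (h3 : V3Hyp) (h23 : V23Hyp) : DispStmt := by
  intro V0 hV0
  obtain ⟨C1, hC1, H1⟩ := h1 V0 hV0
  obtain ⟨C3, c3, hC3, hc3, H3⟩ := h3 V0 hV0
  set J0 : ℝ := ∫ x, V0 x with hJ0def
  have hJ0 : 0 ≤ J0 := integral_nonneg hV0.nonneg
  have hkP := kapP_nonneg
  refine ⟨kapP * J0 + C1, by positivity, fun W hW ε hε => ?_⟩
  obtain ⟨C2, c2, hC2, hc2, H1'⟩ := H1 W hW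
  obtain ⟨C4, c4, hC4, hc4, H4⟩ := h23 V0 hV0 W hW ε hε
  obtain ⟨Ct, hCt, Ht⟩ := exists_tau_le (half_pos hε)
  have hCt0 : 0 ≤ Ct := by linarith
  set K2 : ℝ := 64 * (C3 * (Ct * ((N W : ℝ) * 4) ^ (ε / 2))) with hK2
  set K3 : ℝ := 8 * (C1 * (Ct * 2 ^ (ε / 2)) ^ 2) with hK3
  have hK2' : 0 ≤ K2 := by rw [hK2]; positivity
  have hK3' : 0 ≤ K3 := by rw [hK3]; positivity
  refine ⟨C2 + 16 * C4 + K2 + K3, c2 + c3 + c4 + 1 / 2, by positivity, by positivity,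
    fun ξ u0 A B hξ hξ1 hu1 hu2 hA hB => ?_⟩
  have hA0 : 0 < A := by linarith
  have hB0 : 0 < B := by linarith
  have hAB0 : 0 < A * B := by positivity
  set c : ℝ := c2 + c3 + c4 + 1 / 2 with hc
  set E : ℝ := C3 * ξ ^ (-c3) * B ^ (1 / 3 : ℝ) with hE
  set M : ℝ := C1 * ξ ^ (-(1 / 2) : ℝ) * B with hM
  set F : ℝ := (A * B) ^ (-(1 / 3) : ℝ) with hF
  set T : ℝ := C4 * ξ ^ (-c4) * (A * B) ^ ε * (A * B ^ (1 / 3 : ℝ)) with hT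
  have hE0 : 0 ≤ E := by rw [hE]; positivity
  have hM0 : 0 ≤ M := by rw [hM]; positivity
  have hF0 : 0 ≤ F := by rw [hF]; positivity
  have hT0 : 0 ≤ T := by rw [hT]; positivity
  refine ⟨RK (Vx V0 ξ u0) A B E (M * F) W, fun a1 a2 => RK_nonneg hE0 (mul_nonneg hM0 hF0) W a1 a2,
    ?_, ?_⟩
  · -- the sum of the kernel
    refine (sum_RK_le hW hA hE0 (mul_nonneg hM0 hF0) hT0 (half_pos hε).le hCt0
      (H4 ξ u0 A B hξ hξ1 hu1 hu2 hA hB) Ht).trans ?_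
    have q1 := piece1 (X2 := (A * B) ^ (2 / 3 : ℝ)) (ε := ε) hξ hξ1
      (show c4 ≤ c by linarith) hC4 hA hB (by positivity)
    have q2 := piece2 (X2 := (A * B) ^ (2 / 3 : ℝ)) hξ hξ1
      (show c3 ≤ c by linarith) hC3 hCt0 hA hB (by positivity)
      (show (0 : ℝ) ≤ N W by positivity) hε
    have q3 := piece3 (X1 := A ^ (11 / 6 : ℝ) * B ^ (1 / 3 : ℝ)) hξ hξ1
      (show 1 / 2 ≤ c by linarith) hC1 hCt0 hA hB (by positivity) hε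
    set Y : ℝ := ξ ^ (-c) * (A * B) ^ ε *
      (A ^ (11 / 6 : ℝ) * B ^ (1 / 3 : ℝ) + (A * B) ^ (2 / 3 : ℝ)) with hY
    have hY0 : 0 ≤ Y := by rw [hY]; positivity
    calc _ ≤ 16 * C4 * Y + K2 * Y + K3 * Y := add_le_add (add_le_add q1 q2) q3
      _ = (16 * C4 + K2 + K3) * Y := by ring
      _ ≤ (C2 + 16 * C4 + K2 + K3) * Y := by
          gcongr
          linarith
      _ = _ := by rw [hY]; ring
  · -- the inequality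
    intro α hα
    have h1' := H1' ξ u0 A B hξ hξ1 hu1 hu2 hA hB α hα
    rw [integral_Vx (V0 := V0) ξ u0 hξ] at h1'
    have h3' : ∀ D : O, Primary D → |T3 (Vx V0 ξ u0) B D -
        kapP * dens D * B ^ (2 / 3 : ℝ) * IVr (Vx V0 ξ u0)| ≤ E * tau D := by
      intro D hD
      refine (H3 ξ u0 B hξ hξ1 hu1 hu2 hB D hD).trans (le_of_eq ?_)
      rw [hE]; ring
    have key := DS_le (C0 := (kapP * J0 + C1) * ξ) hW hB0
      (fun u h => Vx_eq_zero hV0 hξ hξ1 hu2 u h) (mul_nonneg hξ.le hJ0)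
      (by nlinarith) h3' hα h1'
    refine key.trans ?_
    have k1 : C2 * ξ ^ (-c2) * NCf α A B ≤
        (C2 + 16 * C4 + K2 + K3) * ξ ^ (-c) * NCf α A B := by
      have := xi_le hξ hξ1 (show c2 ≤ c by linarith)
      have := NCf_nonneg (α := α) hA0 hB0
      gcongr
      linarith
    have k2 : M * (∑ a1 ∈ SPB (2 * A), ∑ a2 ∈ SPB (2 * A),
        if a1 = a2 then 0 else ‖α a1‖ * ‖α a2‖ * emk a1 a2) ≤
        (kapP * J0 + C1) * ξ ^ (-(1 / 2) : ℝ) * B * (∑ a1 ∈ SPB (2 * A), ∑ a2 ∈ SPB (2 * A),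
        if a1 = a2 then 0 else ‖α a1‖ * ‖α a2‖ * emk a1 a2) := by
      refine mul_le_mul_of_nonneg_right ?_ (em_nonneg α A)
      rw [hM]
      gcongr
      have : 0 ≤ kapP * J0 := by positivity
      linarith
    have k3 : (kapP * J0 + C1) * ξ * dens W * B * ∑ a ∈ SPB (2 * A), ‖α a‖ ^ 2 =
        (kapP * J0 + C1) * dens W * (ξ * B) * ∑ a ∈ SPB (2 * A), ‖α a‖ ^ 2 := by ring
    rw [k3]
    exact add_le_add (add_le_add (add_le_add le_rfl k2) le_rfl) k1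

end Vale.Agent.P006.DISP
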