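import Vale.Agent.P006.DISP.Final

/-!
P006, block DISP: `V1Hyp → V3Hyp → V23Hyp → DispStmt`.
-/

namespace Vale.Agent.P006.DISP

open scoped BigOperators Classical
open Vale.Agent.P006 Finset MeasureTheory
open Vale.Agent.P006.V1 (ch cop)

theorem card_SPB_le {X : ℝ} (hX : 0 ≤ X) : ((SPB X).card : ℝ) ≤ 4 * X := by
  refine le_trans ?_ (card_PB_le hX)
  exact_mod_cast card_le_card SPB_subset_PB

/-- the kernel of the error terms -/
noncomputable def RK (V : ℝ → ℝ) (A B E F : ℝ) (W a1 a2 : O) : ℝ :=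
  if A < (N a1 : ℝ) ∧ A < (N a2 : ℝ) then
    2 * (n6 a2 * ‖T23 V B W a1 a2‖) + n6 a1 * n6 a2 * (E * (tau (W * (a1 * a2)) : ℝ))
      + (if a1 = a2 then F * (tau a1 : ℝ) ^ 2 else 0)
  else 0

theorem RK_nonneg {V : ℝ → ℝ} {A B E F : ℝ} (hE : 0 ≤ E) (hF : 0 ≤ F) (W a1 a2 : O) :
    0 ≤ RK V A B E F W a1 a2 := by
  unfold RK
  split_ifs
  · have := n6_nonneg a1; have := n6_nonneg a2; positivity
  · have := n6_nonneg a1; have := n6_nonneg a2; positivity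
  · exact le_rfl

theorem sum_RK_le {V : ℝ → ℝ} {A B E F T Ct δ : ℝ} {W : O} (hW : InP W) (hA : 1 ≤ A)
    (hE : 0 ≤ E) (hF : 0 ≤ F) (hT : 0 ≤ T) (hδ : 0 ≤ δ) (hCt : 0 ≤ Ct)
    (h23 : ∀ a2 ∈ SPB (2 * A),
      ∑ a1 ∈ (SPB (2 * A)).filter (fun a => A < (N a : ℝ)), ‖T23 V B W a1 a2‖ ≤ T)
    (htau : ∀ c : O, Primary c → (tau c : ℝ) ≤ Ct * (N c : ℝ) ^ δ) :
    ∑ a1 ∈ SPB (2 * A), ∑ a2 ∈ SPB (2 * A), RK V A B E F W a1 a2 ≤
      16 * (A * A ^ (-(1 / 6) : ℝ) * T)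
        + 64 * (A * A * (A ^ (-(1 / 6) : ℝ) * A ^ (-(1 / 6) : ℝ)) *
            (E * (Ct * ((N W : ℝ) * (2 * A * (2 * A))) ^ δ)))
        + 8 * (A * (F * (Ct * (2 * A) ^ δ) ^ 2)) := by
  have hA0 : 0 < A := by linarith
  set S := SPB (2 * A) with hS
  set q : ℝ := A ^ (-(1 / 6) : ℝ) with hq
  have hq0 : 0 ≤ q := by rw [hq]; positivity
  have hcard : (S.card : ℝ) ≤ 8 * A := by
    have := card_SPB_le (X := 2 * A) (by linarith)
    linarith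
  -- pointwise majorant
  have hpt : ∀ a1 ∈ S, ∀ a2 ∈ S, RK V A B E F W a1 a2 ≤
      (if A < (N a1 : ℝ) then 2 * q * ‖T23 V B W a1 a2‖ else 0)
        + q * q * (E * (Ct * ((N W : ℝ) * (2 * A * (2 * A))) ^ δ))
        + (if a1 = a2 then F * (Ct * (2 * A) ^ δ) ^ 2 else 0) := by
    intro a1 h1 a2 h2
    rw [hS, mem_SPB_iff] at h1 h2
    have hN1 := one_le_N h1.1.ne_zero
    have hN2 := one_le_N h2.1.ne_zero
    have hNW := one_le_N hW.ne_zero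
    have t1 : (tau a1 : ℝ) ≤ Ct * (2 * A) ^ δ := by
      refine (htau a1 h1.1.1).trans ?_
      gcongr
      exact h1.2
    have t2 : (tau (W * (a1 * a2)) : ℝ) ≤ Ct * ((N W : ℝ) * (2 * A * (2 * A))) ^ δ := by
      refine (htau _ (hW.1.mul (h1.1.1.mul h2.1.1))).trans ?_
      rw [N_mul, N_mul]
      push_cast
      gcongr
      · exact h1.2
      · exact h2.2
    have hz1 : 0 ≤ q * q * (E * (Ct * ((N W : ℝ) * (2 * A * (2 * A))) ^ δ)) := by positivity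
    have hz2 : 0 ≤ (if a1 = a2 then F * (Ct * (2 * A) ^ δ) ^ 2 else 0) := by
      split_ifs <;> positivity
    have hz3 : 0 ≤ (if A < (N a1 : ℝ) then 2 * q * ‖T23 V B W a1 a2‖ else 0) := by
      split_ifs <;> positivity
    rw [RK]
    by_cases hcond : A < (N a1 : ℝ) ∧ A < (N a2 : ℝ)
    · rw [if_pos hcond, if_pos hcond.1]
      have n1 := n6_le hA0 hcond.1
      have n2 := n6_le hA0 hcond.2
      have m1 := n6_nonneg a1
      have m2 := n6_nonneg a2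
      have k1 : 2 * (n6 a2 * ‖T23 V B W a1 a2‖) ≤ 2 * q * ‖T23 V B W a1 a2‖ := by
        rw [mul_assoc]; gcongr
      have k2 : n6 a1 * n6 a2 * (E * (tau (W * (a1 * a2)) : ℝ)) ≤
          q * q * (E * (Ct * ((N W : ℝ) * (2 * A * (2 * A))) ^ δ)) := by gcongr
      have k3 : F * (tau a1 : ℝ) ^ 2 ≤ F * (Ct * (2 * A) ^ δ) ^ 2 := by gcongr
      by_cases he : a1 = a2
      · rw [if_pos he, if_pos he]; linarith
      · rw [if_neg he, if_neg he]; linarith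
    · rw [if_neg hcond]
      exact add_nonneg (add_nonneg hz3 hz1) hz2
  refine (sum_le_sum fun a1 h1 => sum_le_sum fun a2 h2 => hpt a1 h1 a2 h2).trans ?_
  simp only [sum_add_distrib]
  -- first piece
  have p1 : ∑ a1 ∈ S, ∑ a2 ∈ S, (if A < (N a1 : ℝ) then 2 * q * ‖T23 V B W a1 a2‖ else 0) ≤
      16 * (A * q * T) := by
    rw [sum_comm]
    calc ∑ a2 ∈ S, ∑ a1 ∈ S, (if A < (N a1 : ℝ) then 2 * q * ‖T23 V B W a1 a2‖ else 0)
        = ∑ a2 ∈ S, 2 * q * ∑ a1 ∈ S.filter (fun a => A < (N a : ℝ)), ‖T23 V B W a1 a2‖ := by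
          refine sum_congr rfl fun a2 _ => ?_
          rw [mul_sum, sum_filter]
      _ ≤ ∑ a2 ∈ S, 2 * q * T := by
          refine sum_le_sum fun a2 h2 => ?_
          have := h23 a2 h2
          gcongr
      _ = S.card * (2 * q * T) := by rw [sum_const, nsmul_eq_mul]
      _ ≤ (8 * A) * (2 * q * T) := by gcongr
      _ = _ := by ring
  have p2 : ∑ a1 ∈ S, ∑ a2 ∈ S, q * q * (E * (Ct * ((N W : ℝ) * (2 * A * (2 * A))) ^ δ)) ≤
      64 * (A * A * (q * q) * (E * (Ct * ((N W : ℝ) * (2 * A * (2 * A))) ^ δ))) := by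
    rw [sum_const, sum_const, nsmul_eq_mul, nsmul_eq_mul]
    have hz : 0 ≤ q * q * (E * (Ct * ((N W : ℝ) * (2 * A * (2 * A))) ^ δ)) := by positivity
    calc (S.card : ℝ) * ((S.card : ℝ) * (q * q * (E * (Ct * ((N W : ℝ) * (2 * A * (2 * A))) ^ δ))))
        ≤ (8 * A) * ((8 * A) * (q * q * (E * (Ct * ((N W : ℝ) * (2 * A * (2 * A))) ^ δ)))) := by
          gcongr
      _ = _ := by ring
  have p3 : ∑ a1 ∈ S, ∑ a2 ∈ S, (if a1 = a2 then F * (Ct * (2 * A) ^ δ) ^ 2 else 0) ≤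
      8 * (A * (F * (Ct * (2 * A) ^ δ) ^ 2)) := by
    calc ∑ a1 ∈ S, ∑ a2 ∈ S, (if a1 = a2 then F * (Ct * (2 * A) ^ δ) ^ 2 else 0)
        = ∑ a1 ∈ S, F * (Ct * (2 * A) ^ δ) ^ 2 := by
          refine sum_congr rfl fun a1 h1 => ?_
          rw [sum_ite_eq, if_pos h1]
      _ = S.card * (F * (Ct * (2 * A) ^ δ) ^ 2) := by rw [sum_const, nsmul_eq_mul]
      _ ≤ (8 * A) * (F * (Ct * (2 * A) ^ δ) ^ 2) := by gcongr
      _ = _ := by ring
  linarith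

/-- the inequality for one `α` -/
theorem DS_le {V : ℝ → ℝ} {A B I E F M NCb J C0 : ℝ} {W : O} (hW : InP W) (hB : 0 < B)
    (hV : ∀ u, 4 < u → V u = 0) (hJ : 0 ≤ J) (hC0 : kapP * J ≤ C0)
    (h3 : ∀ D : O, Primary D → |T3 V B D - kapP * dens D * B ^ (2 / 3 : ℝ) * I| ≤ E * tau D)
    {α : O → ℂ} (hα : Adm W A α)
    (h1 : |V1s V B W α A
        - kap0 * I * dens W * B ^ (2 / 3 : ℝ) * Qform α A
        - kapP * dens W * B * J * ∑ a ∈ SPB (2 * A), ‖α a‖ ^ 2 * dens a|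
      ≤ M * (∑ a1 ∈ SPB (2 * A), ∑ a2 ∈ SPB (2 * A),
            if a1 = a2 then ‖α a1‖ ^ 2 * (tau a1 : ℝ) ^ 2 * F
            else ‖α a1‖ * ‖α a2‖ * emk a1 a2) + NCb) :
    DS V B W α A ≤ C0 * dens W * B * ∑ a ∈ SPB (2 * A), ‖α a‖ ^ 2
      + M * (∑ a1 ∈ SPB (2 * A), ∑ a2 ∈ SPB (2 * A),
          if a1 = a2 then 0 else ‖α a1‖ * ‖α a2‖ * emk a1 a2)
      + ∑ a1 ∈ SPB (2 * A), ∑ a2 ∈ SPB (2 * A), ‖α a1‖ * ‖α a2‖ * RK V A B E (M * F) W a1 a2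
      + NCb := by
  have b3 := V3s_bound hW h3 hα
  have b2 := V23_bound hB hV W α A
  rw [ds_expand]
  have hD : kapP * dens W * B * J * ∑ a ∈ SPB (2 * A), ‖α a‖ ^ 2 * dens a ≤
      C0 * dens W * B * ∑ a ∈ SPB (2 * A), ‖α a‖ ^ 2 := by
    have hs : ∑ a ∈ SPB (2 * A), ‖α a‖ ^ 2 * dens a ≤ ∑ a ∈ SPB (2 * A), ‖α a‖ ^ 2 :=
      sum_le_sum fun a _ => mul_le_of_le_one_right (by positivity) (dens_le_one a)
    have hs0 : 0 ≤ ∑ a ∈ SPB (2 * A), ‖α a‖ ^ 2 := sum_nonneg fun a _ => by positivity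
    have hd := dens_nonneg W
    have hk := kapP_nonneg
    calc kapP * dens W * B * J * ∑ a ∈ SPB (2 * A), ‖α a‖ ^ 2 * dens a
        ≤ kapP * dens W * B * J * ∑ a ∈ SPB (2 * A), ‖α a‖ ^ 2 := by gcongr
      _ = (kapP * J) * (dens W * B * ∑ a ∈ SPB (2 * A), ‖α a‖ ^ 2) := by ring
      _ ≤ C0 * (dens W * B * ∑ a ∈ SPB (2 * A), ‖α a‖ ^ 2) := by gcongr
      _ = _ := by ring
  -- kernel identity
  have hk : (∑ a1 ∈ SPB (2 * A), ∑ a2 ∈ SPB (2 * A), ‖α a1‖ * ‖α a2‖ *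
        (n6 a1 * n6 a2 * (E * (tau (W * (a1 * a2)) : ℝ))))
      + (∑ a1 ∈ SPB (2 * A), ∑ a2 ∈ SPB (2 * A), ‖α a1‖ * ‖α a2‖ *
        (2 * (n6 a2 * ‖T23 V B W a1 a2‖)))
      + M * (∑ a1 ∈ SPB (2 * A), ∑ a2 ∈ SPB (2 * A),
            if a1 = a2 then ‖α a1‖ ^ 2 * (tau a1 : ℝ) ^ 2 * F
            else ‖α a1‖ * ‖α a2‖ * emk a1 a2)
      = M * (∑ a1 ∈ SPB (2 * A), ∑ a2 ∈ SPB (2 * A),
          if a1 = a2 then 0 else ‖α a1‖ * ‖α a2‖ * emk a1 a2)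
      + ∑ a1 ∈ SPB (2 * A), ∑ a2 ∈ SPB (2 * A), ‖α a1‖ * ‖α a2‖ * RK V A B E (M * F) W a1 a2 := by
    rw [mul_sum, mul_sum, ← sum_add_distrib, ← sum_add_distrib, ← sum_add_distrib]
    refine sum_congr rfl fun a1 h1 => ?_
    rw [mul_sum, mul_sum, ← sum_add_distrib, ← sum_add_distrib, ← sum_add_distrib]
    refine sum_congr rfl fun a2 h2 => ?_
    by_cases n1 : α a1 = 0
    · by_cases he : a1 = a2
      · subst he; simp [n1]
      · simp [n1, he]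
    by_cases n2 : α a2 = 0
    · by_cases he : a1 = a2
      · exact (n1 (he ▸ n2)).elim
      · simp [n2, he]
    have c1 := (hα.supp a1 n1).2.2.1
    have c2 := (hα.supp a2 n2).2.2.1
    rw [RK, if_pos (show A < (N a1 : ℝ) ∧ A < (N a2 : ℝ) from ⟨c1, c2⟩)]
    by_cases he : a1 = a2
    · simp only [he, if_true]
      ring
    · simp only [he, if_false]
      ring
  have a1 := le_abs_self (V1s V B W α A
        - kap0 * I * dens W * B ^ (2 / 3 : ℝ) * Qform α A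
        - kapP * dens W * B * J * ∑ a ∈ SPB (2 * A), ‖α a‖ ^ 2 * dens a)
  have a2 := neg_abs_le (V3s V B W α A - kap0 * I * dens W * B ^ (2 / 3 : ℝ) * Qform α A)
  have a3 := neg_abs_le ((V2s V B W α A).re - V3s V B W α A)
  linarith

end Vale.Agent.P006.DISP
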