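import Vale.Agent.P006.Main.Defs
import Vale.Agent.P006.H845.Sqf
import Vale.Agent.P006.H103.Defs
import Vale.Agent.P006.V1.Theta

/-!
P006, block DISP (helper359): the objects of the dispersion step.

`a` runs over squarefree primary elements with `A < N a ≤ 2A` (inner variable, coefficients `α`),
`b` over primary elements prime to `W` with the smooth weight `V (N b / B)`.
-/

namespace Vale.Agent.P006.DISP

open scoped BigOperators Classical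
open Vale.Agent.P006 Finset
open Vale.Agent.P006.V1 (ch cop)

/-- the fixed shape of the weight: smooth, `0 ≤ V0 ≤ 1`, `V0 = 1` on `[0,1]`, supported in
`[-1/2, 3/2]` -/
structure Bump (V0 : ℝ → ℝ) : Prop where
  smooth : ContDiff ℝ (⊤ : ℕ∞) V0
  nonneg : ∀ x, 0 ≤ V0 x
  le_one : ∀ x, V0 x ≤ 1
  one : ∀ x, 0 ≤ x → x ≤ 1 → V0 x = 1
  supp : ∀ x, V0 x ≠ 0 → -(1 / 2) ≤ x ∧ x ≤ 3 / 2

/-- `V(u) = V0((u - u0)/ξ)` -/
noncomputable def Vx (V0 : ℝ → ℝ) (ξ u0 u : ℝ) : ℝ := V0 ((u - u0) / ξ)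

/-- `Θ(b) = conj g̃(b₁) N(b₁)^(-1/6)` if `b = b₁ m³`, `b₁` squarefree; `0` otherwise. At most one
`m` contributes. -/
noncomputable def Th (b : O) : ℂ :=
  ∑ m ∈ (dvs b).filter (fun m => ∃ b1, InP b1 ∧ b = b1 * m ^ 3),
    (starRingEnd ℂ) (gt 1 (b / m ^ 3)) * (((N (b / m ^ 3) : ℝ) ^ (-(1 / 6) : ℝ) : ℝ) : ℂ)

/-- the weight of `b` -/
noncomputable def wt (V : ℝ → ℝ) (B : ℝ) (W b : O) : ℝ :=
  if IsCoprime b W then V (N b / B) else 0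

/-- `∑_a α_a g̃(a) conj χ_a(b)` -/
noncomputable def Xb (α : O → ℂ) (A : ℝ) (b : O) : ℂ :=
  ∑ a ∈ SPB (2 * A), α a * (gt 1 a * (starRingEnd ℂ) (ch a b))

/-- `c_* Θ(b) ∑_a α_a N(a)^(-1/6) 1_{(a,b)=1}` -/
noncomputable def Yb (α : O → ℂ) (A : ℝ) (b : O) : ℂ :=
  (cStar : ℂ) * Th b * ∑ a ∈ SPB (2 * A), α a * ((((N a : ℝ) ^ (-(1 / 6) : ℝ) : ℝ) : ℂ) * cop a b)

/-- the dispersion sum -/
noncomputable def DS (V : ℝ → ℝ) (B : ℝ) (W : O) (α : O → ℂ) (A : ℝ) : ℝ :=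
  ∑ b ∈ PB (4 * B), wt V B W b * ‖Xb α A b - Yb α A b‖ ^ 2

/-- first sum -/
noncomputable def V1s (V : ℝ → ℝ) (B : ℝ) (W : O) (α : O → ℂ) (A : ℝ) : ℝ :=
  ∑ b ∈ PB (4 * B), wt V B W b * ‖Xb α A b‖ ^ 2

/-- cross term -/
noncomputable def V2s (V : ℝ → ℝ) (B : ℝ) (W : O) (α : O → ℂ) (A : ℝ) : ℂ :=
  ∑ b ∈ PB (4 * B), (wt V B W b : ℂ) * (Xb α A b * (starRingEnd ℂ) (Yb α A b))

/-- third sum -/
noncomputable def V3s (V : ℝ → ℝ) (B : ℝ) (W : O) (α : O → ℂ) (A : ℝ) : ℝ :=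
  ∑ b ∈ PB (4 * B), wt V B W b * ‖Yb α A b‖ ^ 2

/-- `∑_{b primary, (b,D)=1} V(N b/B) |Θ(b)|²` (evaluated by CM2) -/
noncomputable def T3 (V : ℝ → ℝ) (B : ℝ) (D : O) : ℝ :=
  ∑ b ∈ PB (4 * B), wt V B D b * ‖Th b‖ ^ 2

/-- `∑_m ∑_{b₁} 1_{(b₁ m, W a₂)=1} 1_{(m,a₁)=1} V(N b₁ N m³/B) N(b₁)^(-1/6) w(a₁ b₁)`
(bounded in block V23) -/
noncomputable def T23 (V : ℝ → ℝ) (B : ℝ) (W a1 a2 : O) : ℂ :=
  ∑ m ∈ PB (4 * B), ∑ b ∈ SPB (4 * B),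
    if IsCoprime (b * m) (W * a2) ∧ IsCoprime m a1 then
      ((V (N b * (N m : ℝ) ^ 3 / B) * (N b : ℝ) ^ (-(1 / 6) : ℝ) : ℝ) : ℂ) * wf (a1 * b)
    else 0

/-- admissible coefficients -/
structure Adm (W : O) (A : ℝ) (α : O → ℂ) : Prop where
  supp : ∀ a, α a ≠ 0 → InP a ∧ IsCoprime a W ∧ A < (N a : ℝ) ∧ (N a : ℝ) ≤ 2 * A

theorem ds_expand (V : ℝ → ℝ) (B : ℝ) (W : O) (α : O → ℂ) (A : ℝ) :
    DS V B W α A = V1s V B W α A - 2 * (V2s V B W α A).re + V3s V B W α A := by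
  unfold DS V1s V2s V3s
  rw [Complex.re_sum, mul_sum, ← sum_sub_distrib, ← sum_add_distrib]
  refine sum_congr rfl fun b _ => ?_
  have h : ∀ x y : ℂ, ‖x - y‖ ^ 2 = ‖x‖ ^ 2 - 2 * (x * (starRingEnd ℂ) y).re + ‖y‖ ^ 2 := by
    intro x y
    rw [← Complex.normSq_eq_norm_sq, ← Complex.normSq_eq_norm_sq, ← Complex.normSq_eq_norm_sq,
      Complex.normSq_sub]
    ring
  rw [h, Complex.re_ofReal_mul]
  ring

end Vale.Agent.P006.DISP
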