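import Vale.Agent.P006.DISP.Theta
import Vale.Agent.P006.DISP.Stmt

/-!
P006, block DISP: expansion of the second and third dispersion sums.
-/

namespace Vale.Agent.P006.DISP

open scoped BigOperators Classical
open Vale.Agent.P006 Finset
open Vale.Agent.P006.V1 (ch cop)

/-- inner sum of the cross term -/
noncomputable def P2 (V : ℝ → ℝ) (B : ℝ) (W a1 a2 : O) : ℂ :=
  ∑ b ∈ PB (4 * B), (wt V B W b : ℂ) *
    (gt 1 a1 * (starRingEnd ℂ) (ch a1 b) * ((starRingEnd ℂ) (Th b) * cop a2 b))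

/-- inner sum of the third term -/
noncomputable def P3 (V : ℝ → ℝ) (B : ℝ) (W a1 a2 : O) : ℂ :=
  ∑ b ∈ PB (4 * B), (wt V B W b : ℂ) *
    ((cStar : ℂ) * (((N a1 : ℝ) ^ (-(1 / 6) : ℝ) : ℝ) : ℂ) * (Th b * cop a1 b) *
      ((starRingEnd ℂ) (Th b) * cop a2 b))

theorem conj_cop (m x : O) : (starRingEnd ℂ) (cop m x) = cop m x := by
  rw [cop]; split_ifs <;> simp

theorem Yb_eq (α : O → ℂ) (A : ℝ) (b : O) : Yb α A b =
    ∑ a ∈ SPB (2 * A), α a * ((cStar : ℂ) *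
      (((N a : ℝ) ^ (-(1 / 6) : ℝ) : ℝ) : ℂ) * (Th b * cop a b)) := by
  rw [Yb, mul_sum]
  refine sum_congr rfl fun a _ => ?_
  ring

theorem conj_Yb (α : O → ℂ) (A : ℝ) (b : O) : (starRingEnd ℂ) (Yb α A b) =
    ∑ a ∈ SPB (2 * A), (starRingEnd ℂ) (α a) * ((cStar : ℂ) *
      (((N a : ℝ) ^ (-(1 / 6) : ℝ) : ℝ) : ℂ) * ((starRingEnd ℂ) (Th b) * cop a b)) := by
  rw [Yb, map_mul, map_mul, map_sum, Complex.conj_ofReal, mul_sum]
  refine sum_congr rfl fun a _ => ?_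
  rw [map_mul, map_mul, Complex.conj_ofReal, conj_cop]
  ring

theorem V2s_eq (V : ℝ → ℝ) (B : ℝ) (W : O) (α : O → ℂ) (A : ℝ) :
    V2s V B W α A = ∑ a1 ∈ SPB (2 * A), ∑ a2 ∈ SPB (2 * A), α a1 * (starRingEnd ℂ) (α a2) *
      ((cStar : ℂ) * (((N a2 : ℝ) ^ (-(1 / 6) : ℝ) : ℝ) : ℂ)) * P2 V B W a1 a2 := by
  have e1 : V2s V B W α A = ∑ b ∈ PB (4 * B), ∑ a1 ∈ SPB (2 * A), ∑ a2 ∈ SPB (2 * A),
      α a1 * (starRingEnd ℂ) (α a2) *
      ((cStar : ℂ) * (((N a2 : ℝ) ^ (-(1 / 6) : ℝ) : ℝ) : ℂ)) * ((wt V B W b : ℂ) *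
    (gt 1 a1 * (starRingEnd ℂ) (ch a1 b) * ((starRingEnd ℂ) (Th b) * cop a2 b))) := by
    rw [V2s]
    refine sum_congr rfl fun b _ => ?_
    rw [conj_Yb, Xb, sum_mul_sum, mul_sum]
    refine sum_congr rfl fun a1 _ => ?_
    rw [mul_sum]
    refine sum_congr rfl fun a2 _ => ?_
    ring
  rw [e1, sum_comm]
  refine sum_congr rfl fun a1 _ => ?_
  rw [sum_comm]
  refine sum_congr rfl fun a2 _ => ?_
  rw [P2, mul_sum]

theorem V3s_eq' (V : ℝ → ℝ) (B : ℝ) (W : O) (α : O → ℂ) (A : ℝ) :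
    (V3s V B W α A : ℂ) = ∑ a1 ∈ SPB (2 * A), ∑ a2 ∈ SPB (2 * A), α a1 * (starRingEnd ℂ) (α a2) *
      ((cStar : ℂ) * (((N a2 : ℝ) ^ (-(1 / 6) : ℝ) : ℝ) : ℂ)) * P3 V B W a1 a2 := by
  have e1 : (V3s V B W α A : ℂ) = ∑ b ∈ PB (4 * B), ∑ a1 ∈ SPB (2 * A), ∑ a2 ∈ SPB (2 * A),
      α a1 * (starRingEnd ℂ) (α a2) *
      ((cStar : ℂ) * (((N a2 : ℝ) ^ (-(1 / 6) : ℝ) : ℝ) : ℂ)) * ((wt V B W b : ℂ) *
    ((cStar : ℂ) * (((N a1 : ℝ) ^ (-(1 / 6) : ℝ) : ℝ) : ℂ) * (Th b * cop a1 b) *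
      ((starRingEnd ℂ) (Th b) * cop a2 b))) := by
    rw [V3s]
    push_cast
    refine sum_congr rfl fun b _ => ?_
    rw [← Complex.ofReal_pow, ← Complex.normSq_eq_norm_sq, ← Complex.mul_conj, conj_Yb, Yb_eq,
      sum_mul_sum, mul_sum]
    refine sum_congr rfl fun a1 _ => ?_
    rw [mul_sum]
    refine sum_congr rfl fun a2 _ => ?_
    ring
  rw [e1, sum_comm]
  refine sum_congr rfl fun a1 _ => ?_
  rw [sum_comm]
  refine sum_congr rfl fun a2 _ => ?_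
  rw [P3, mul_sum]

theorem cop_mul_cop (a1 a2 b : O) : cop a1 b * cop a2 b = cop (a1 * a2) b := by
  simp only [cop, IsCoprime.mul_right_iff]
  by_cases h1 : IsCoprime b a1 <;> by_cases h2 : IsCoprime b a2 <;> simp [h1, h2]

theorem wt_mul_cop (V : ℝ → ℝ) (B : ℝ) (W D b : O) :
    (wt V B W b : ℂ) * cop D b = (wt V B (W * D) b : ℂ) := by
  simp only [cop, wt, IsCoprime.mul_right_iff]
  by_cases h1 : IsCoprime b W <;> by_cases h2 : IsCoprime b D <;> simp [h1, h2]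

theorem P3_eq (V : ℝ → ℝ) (B : ℝ) (W a1 a2 : O) :
    P3 V B W a1 a2 = (cStar : ℂ) * (((N a1 : ℝ) ^ (-(1 / 6) : ℝ) : ℝ) : ℂ) *
      (T3 V B (W * (a1 * a2)) : ℂ) := by
  rw [P3, T3]
  push_cast
  rw [mul_sum]
  refine sum_congr rfl fun b _ => ?_
  rw [← Complex.ofReal_pow, ← Complex.normSq_eq_norm_sq, ← Complex.mul_conj, ← wt_mul_cop,
    ← cop_mul_cop]
  ring

theorem cop_mul_right {b1 m D : O} : cop D (b1 * m ^ 3) = cop D b1 * cop D m := by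
  simp only [cop, IsCoprime.mul_left_iff, IsCoprime.pow_left_iff (show 0 < 3 by norm_num)]
  by_cases h1 : IsCoprime b1 D <;> by_cases h2 : IsCoprime m D <;> simp [h1, h2]

theorem ch_mul_cube {a b1 m : O} : ch a (b1 * m ^ 3) = ch a b1 * cop a m := by
  rw [V1.ch_mul]
  congr 1
  rw [cop]
  split_ifs with h
  · exact V1.ch_cube h
  · rw [ch, sym_pow_left, sym_eq_zero.2 h]; simp

/-- `P2 - P3 = T23` -/
theorem P2_sub_P3 {V : ℝ → ℝ} {B : ℝ} (hB : 0 < B) (hV : ∀ u, 4 < u → V u = 0) {W a1 a2 : O}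
    (h1 : InP a1) : P2 V B W a1 a2 - P3 V B W a1 a2 = T23 V B W a1 a2 := by
  have e : P2 V B W a1 a2 - P3 V B W a1 a2 = ∑ b ∈ PB (4 * B), (wt V B (W * a2) b : ℂ) *
      ((starRingEnd ℂ) (Th b) * (gt 1 a1 * (starRingEnd ℂ) (ch a1 b) -
        (cStar : ℂ) * (((N a1 : ℝ) ^ (-(1 / 6) : ℝ) : ℝ) : ℂ) * (Th b * cop a1 b))) := by
    rw [P2, P3, ← sum_sub_distrib]
    refine sum_congr rfl fun b _ => ?_
    rw [← wt_mul_cop]
    ring
  rw [e, T23]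
  refine sum_cube_reindex (4 * B) _ _ ?_ ?_ ?_
  · intro b1 m hb hm
    have hNb : (0 : ℝ) < N b1 := by have := one_le_N hb.ne_zero; linarith
    rw [Th_eq hb hm, ch_mul_cube, cop_mul_right, wt, IsCoprime.mul_left_iff,
      IsCoprime.pow_left_iff (show 0 < 3 by norm_num), N_mul, N_pow, ← IsCoprime.mul_left_iff]
    by_cases hc : IsCoprime (b1 * m) (W * a2)
    · by_cases hm1 : IsCoprime m a1
      · rw [if_pos hc, if_pos ⟨hc, hm1⟩]
        have e1 : cop a1 m = 1 := by rw [cop, if_pos hm1]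
        rw [e1, mul_one, mul_one]
        by_cases hb1 : IsCoprime b1 a1
        · have e2 : cop a1 b1 = 1 := by rw [cop, if_pos hb1]
          have hg : gt 1 b1 * (starRingEnd ℂ) (gt 1 b1) = 1 := by
            rw [Complex.mul_conj, Complex.normSq_eq_norm_sq, norm_gt_one hb]; simp
          have hs : ch a1 b1 = toC (sym a1 b1) := by
            rw [ch, recip hb.1 h1.1]
          rw [e2, wf_mul h1 hb hb1.symm, hs]
          simp only [map_mul, Complex.conj_conj, Complex.conj_ofReal]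
          push_cast
          generalize (V (↑(N b1) * ↑(N m) ^ 3 / B) : ℂ) = v
          generalize (((N b1 : ℝ) ^ (-(1 / 6) : ℝ) : ℝ) : ℂ) = x
          generalize (((N a1 : ℝ) ^ (-(1 / 6) : ℝ) : ℝ) : ℂ) = y
          linear_combination (-(v * x * cStar * y * x)) * hg
        · have e2 : cop a1 b1 = 0 := by rw [cop, if_neg hb1]
          have hs : ch a1 b1 = 0 := by rw [ch, sym_eq_zero.2 hb1, map_zero]
          rw [e2, hs, wf_mul_of_not_coprime h1.1 hb.1 (fun h => hb1 h.symm)]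
          simp
      · rw [if_pos hc, if_neg (show ¬ (IsCoprime (b1 * m) (W * a2) ∧ IsCoprime m a1) from
          fun h => hm1 h.2)]
        have e1 : cop a1 m = 0 := by rw [cop, if_neg hm1]
        rw [e1]; simp
    · rw [if_neg hc, if_neg (fun h => hc h.1)]; simp
  · intro b hb hn
    rw [Th_eq_zero hn hb.ne_zero]; simp
  · intro b1 m hb hm hY
    rw [N_mul, N_pow] at hY
    push_cast at hY
    rw [hV _ (by rwa [lt_div_iff₀ hB])]
    simp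

theorem V2s_sub_V3s {V : ℝ → ℝ} {B : ℝ} (hB : 0 < B) (hV : ∀ u, 4 < u → V u = 0) (W : O)
    (α : O → ℂ) (A : ℝ) :
    V2s V B W α A - V3s V B W α A = ∑ a1 ∈ SPB (2 * A), ∑ a2 ∈ SPB (2 * A),
      α a1 * (starRingEnd ℂ) (α a2) *
      ((cStar : ℂ) * (((N a2 : ℝ) ^ (-(1 / 6) : ℝ) : ℝ) : ℂ)) * T23 V B W a1 a2 := by
  rw [V2s_eq, V3s_eq', ← sum_sub_distrib]
  refine sum_congr rfl fun a1 h1 => ?_
  rw [← sum_sub_distrib]
  refine sum_congr rfl fun a2 _ => ?_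
  rw [← P2_sub_P3 hB hV (mem_SPB_iff.1 h1).1]
  ring

end Vale.Agent.P006.DISP
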