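import Vale.Agent.P006.DISP.Main

/-!
P006, block DISP: the dispersion theorem from its three inputs.
-/

namespace Vale.Agent.P006.DISP

open scoped BigOperators Classical
open Vale.Agent.P006 Finset MeasureTheory
open Vale.Agent.P006.V1 (ch cop)

/-- `N(a)^(-1/6)` -/
noncomputable def n6 (a : O) : ℝ := (N a : ℝ) ^ (-(1 / 6) : ℝ)

theorem n6_nonneg (a : O) : 0 ≤ n6 a := by unfold n6; positivity

theorem n6_le {a : O} {A : ℝ} (hA : 0 < A) (h : A < (N a : ℝ)) : n6 a ≤ A ^ (-(1 / 6) : ℝ) := by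
  unfold n6
  exact Real.rpow_le_rpow_of_nonpos hA h.le (by norm_num)

theorem norm_mul_conj (x y : ℂ) : ‖x * (starRingEnd ℂ) y‖ = ‖x‖ * ‖y‖ := by
  rw [norm_mul, RingHomIsometric.norm_map]

/-- evaluation of the third sum -/
theorem V3s_bound {V : ℝ → ℝ} {B E I : ℝ} {W : O} (hW : InP W)
    (h3 : ∀ D : O, Primary D →
      |T3 V B D - kapP * dens D * B ^ (2 / 3 : ℝ) * I| ≤ E * tau D)
    {A : ℝ} {α : O → ℂ} (hα : Adm W A α) :
    |V3s V B W α A - kap0 * I * dens W * B ^ (2 / 3 : ℝ) * Qform α A| ≤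
      ∑ a1 ∈ SPB (2 * A), ∑ a2 ∈ SPB (2 * A), ‖α a1‖ * ‖α a2‖ *
        (n6 a1 * n6 a2 * (E * (tau (W * (a1 * a2)) : ℝ))) := by
  have hE : ∀ a1 ∈ SPB (2 * A), ∀ a2 ∈ SPB (2 * A), α a1 ≠ 0 → α a2 ≠ 0 →
      dens (W * (a1 * a2)) = dens W * dens (a1 * a2) := by
    intro a1 h1 a2 h2 n1 n2
    have p1 := (mem_SPB_iff.1 h1).1
    have p2 := (mem_SPB_iff.1 h2).1
    exact dens_mul hW.1 (p1.1.mul p2.1)
      (IsCoprime.mul_left (hα.supp a1 n1).2.1 (hα.supp a2 n2).2.1)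
  have e0 : ((V3s V B W α A - kap0 * I * dens W * B ^ (2 / 3 : ℝ) * Qform α A : ℝ) : ℝ) =
      (∑ a1 ∈ SPB (2 * A), ∑ a2 ∈ SPB (2 * A), α a1 * (starRingEnd ℂ) (α a2) *
        (((cStar ^ 2 * (n6 a1 * n6 a2) *
          (T3 V B (W * (a1 * a2)) - kapP * dens (W * (a1 * a2)) * B ^ (2 / 3 : ℝ) * I) : ℝ)) : ℂ)).re
      := by
    have e1 : V3s V B W α A = ((V3s V B W α A : ℝ) : ℂ).re := (Complex.ofReal_re _).symm
    rw [e1, V3s_eq', Qform, kap0_eq]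
    rw [show cStar ^ 2 * kapP * I * dens W * B ^ (2 / 3 : ℝ) *
        (∑ a1 ∈ SPB (2 * A), ∑ a2 ∈ SPB (2 * A), α a1 * (starRingEnd ℂ) (α a2) *
          ((((N a1 : ℝ) ^ (-(1 / 6) : ℝ) * (N a2 : ℝ) ^ (-(1 / 6) : ℝ) * dens (a1 * a2) : ℝ)) : ℂ)).re
        = (((cStar ^ 2 * kapP * I * dens W * B ^ (2 / 3 : ℝ) : ℝ) : ℂ) *
        (∑ a1 ∈ SPB (2 * A), ∑ a2 ∈ SPB (2 * A), α a1 * (starRingEnd ℂ) (α a2) *
          ((((N a1 : ℝ) ^ (-(1 / 6) : ℝ) * (N a2 : ℝ) ^ (-(1 / 6) : ℝ) * dens (a1 * a2) : ℝ))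
            : ℂ))).re by
        rw [Complex.re_ofReal_mul]]
    rw [← Complex.sub_re, mul_sum, ← sum_sub_distrib]
    congr 1
    refine sum_congr rfl fun a1 h1 => ?_
    rw [mul_sum, ← sum_sub_distrib]
    refine sum_congr rfl fun a2 h2 => ?_
    rw [P3_eq]
    by_cases n1 : α a1 = 0
    · simp [n1]
    by_cases n2 : α a2 = 0
    · simp [n2]
    rw [hE a1 h1 a2 h2 n1 n2]
    simp only [n6]
    push_cast
    ring
  rw [e0]
  refine (Complex.abs_re_le_norm _).trans ((norm_sum_le _ _).trans ?_)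
  refine sum_le_sum fun a1 h1 => (norm_sum_le _ _).trans (sum_le_sum fun a2 h2 => ?_)
  have p1 := (mem_SPB_iff.1 h1).1
  have p2 := (mem_SPB_iff.1 h2).1
  have h4 := h3 (W * (a1 * a2)) (hW.1.mul (p1.1.mul p2.1))
  rw [norm_mul, norm_mul_conj, Complex.norm_real, Real.norm_eq_abs, abs_mul, abs_mul,
    abs_of_nonneg (mul_nonneg (n6_nonneg a1) (n6_nonneg a2)), abs_of_nonneg (sq_nonneg cStar)]
  refine mul_le_mul_of_nonneg_left ?_ (by positivity)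
  have hc : cStar ^ 2 ≤ 1 := by
    have := cStar_le_one; have := cStar_pos; nlinarith
  have hn : 0 ≤ n6 a1 * n6 a2 := mul_nonneg (n6_nonneg a1) (n6_nonneg a2)
  calc cStar ^ 2 * (n6 a1 * n6 a2) * |T3 V B (W * (a1 * a2)) -
        kapP * dens (W * (a1 * a2)) * B ^ (2 / 3 : ℝ) * I|
      ≤ 1 * (n6 a1 * n6 a2) * (E * tau (W * (a1 * a2))) := by gcongr
    _ = _ := by ring

/-- the cross terms -/
theorem V23_bound {V : ℝ → ℝ} {B : ℝ} (hB : 0 < B) (hV : ∀ u, 4 < u → V u = 0) (W : O)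
    (α : O → ℂ) (A : ℝ) :
    2 * |(V2s V B W α A).re - V3s V B W α A| ≤
      ∑ a1 ∈ SPB (2 * A), ∑ a2 ∈ SPB (2 * A), ‖α a1‖ * ‖α a2‖ *
        (2 * (n6 a2 * ‖T23 V B W a1 a2‖)) := by
  have e : (V2s V B W α A).re - V3s V B W α A =
      (V2s V B W α A - V3s V B W α A).re := by
    rw [Complex.sub_re, Complex.ofReal_re]
  rw [e, V2s_sub_V3s hB hV]
  have h := (Complex.abs_re_le_norm (∑ a1 ∈ SPB (2 * A), ∑ a2 ∈ SPB (2 * A),
      α a1 * (starRingEnd ℂ) (α a2) *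
      ((cStar : ℂ) * (((N a2 : ℝ) ^ (-(1 / 6) : ℝ) : ℝ) : ℂ)) * T23 V B W a1 a2)).trans
      (norm_sum_le _ _)
  have h2 : ∑ a1 ∈ SPB (2 * A), ‖∑ a2 ∈ SPB (2 * A),
      α a1 * (starRingEnd ℂ) (α a2) *
      ((cStar : ℂ) * (((N a2 : ℝ) ^ (-(1 / 6) : ℝ) : ℝ) : ℂ)) * T23 V B W a1 a2‖ ≤
      ∑ a1 ∈ SPB (2 * A), ∑ a2 ∈ SPB (2 * A), ‖α a1‖ * ‖α a2‖ *
        (n6 a2 * ‖T23 V B W a1 a2‖) := by
    refine sum_le_sum fun a1 _ => (norm_sum_le _ _).trans (sum_le_sum fun a2 _ => ?_)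
    rw [norm_mul, norm_mul, norm_mul_conj, norm_mul, Complex.norm_real, Complex.norm_real,
      Real.norm_eq_abs, Real.norm_eq_abs, abs_of_pos cStar_pos, ← n6, abs_of_nonneg (n6_nonneg a2),
      mul_assoc]
    refine mul_le_mul_of_nonneg_left ?_ (by positivity)
    have h1 := cStar_le_one
    have h2 := n6_nonneg a2
    have h3 := norm_nonneg (T23 V B W a1 a2)
    have h4 : cStar * n6 a2 ≤ n6 a2 := by nlinarith
    exact mul_le_mul_of_nonneg_right h4 h3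
  calc 2 * _ ≤ 2 * ∑ a1 ∈ SPB (2 * A), ∑ a2 ∈ SPB (2 * A), ‖α a1‖ * ‖α a2‖ *
        (n6 a2 * ‖T23 V B W a1 a2‖) := by linarith [h.trans h2]
    _ = _ := by
        rw [mul_sum]
        refine sum_congr rfl fun a1 _ => ?_
        rw [mul_sum]
        refine sum_congr rfl fun a2 _ => ?_
        ring

end Vale.Agent.P006.DISP
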