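import Vale.Agent.P006.DISP.Defs

/-!
P006, block DISP: the function `Θ`.
-/

namespace Vale.Agent.P006.DISP

open scoped BigOperators Classical
open Vale.Agent.P006 Finset
open Vale.Agent.P006.V1 (ch cop)

theorem mem_SPB_iff {X : ℝ} {c : O} : c ∈ SPB X ↔ InP c ∧ (N c : ℝ) ≤ X := by
  rw [mem_SPB, InP]; tauto

theorem cube_unique_dvd {b1 b1' m m' : O} (h1' : InP b1')
    (hm : Primary m) (h : b1 * m ^ 3 = b1' * m' ^ 3) : m ∣ m' := by
  have hm0 : m ≠ 0 := hm.ne_zero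
  set g := EuclideanDomain.gcd m m' with hg
  have hg0 : g ≠ 0 := by
    intro h0
    rw [EuclideanDomain.gcd_eq_zero_iff] at h0
    exact hm0 h0.1
  obtain ⟨n, hn⟩ := EuclideanDomain.gcd_dvd_left m m'
  obtain ⟨n', hn'⟩ := EuclideanDomain.gcd_dvd_right m m'
  rw [← hg] at hn hn'
  have hcop : IsCoprime n n' := by
    have e := EuclideanDomain.gcd_eq_gcd_ab m m'
    rw [← hg] at e
    refine ⟨EuclideanDomain.gcdA m m', EuclideanDomain.gcdB m m', ?_⟩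
    generalize EuclideanDomain.gcdA m m' = x at e ⊢
    generalize EuclideanDomain.gcdB m m' = y at e ⊢
    have : g * (x * n + y * n') = g * 1 := by
      rw [hn, hn'] at e
      linear_combination -e
    exact mul_left_cancel₀ hg0 this
  have h2 : b1 * n ^ 3 = b1' * n' ^ 3 := by
    have h3 : g ^ 3 * (b1 * n ^ 3) = g ^ 3 * (b1' * n' ^ 3) := by
      rw [hn, hn'] at h
      linear_combination h
    exact mul_left_cancel₀ (pow_ne_zero 3 hg0) h3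
  have h4 : n ^ 3 ∣ b1' := by
    have h5 : n ^ 3 ∣ b1' * n' ^ 3 := ⟨b1, by rw [← h2]; ring⟩
    exact (IsCoprime.pow hcop).dvd_of_dvd_mul_right h5
  have h7 : n * n ∣ n ^ 3 := ⟨n, by ring⟩
  have h6 : IsUnit n := h1'.2 n (h7.trans h4)
  rw [hn, hn']
  exact mul_dvd_mul_left g h6.dvd

theorem cube_unique {b1 b1' m m' : O} (h1 : InP b1) (h1' : InP b1')
    (hm : Primary m) (hm' : Primary m') (h : b1 * m ^ 3 = b1' * m' ^ 3) : m = m' :=
  hm.eq_of_dvd_dvd hm' (cube_unique_dvd h1' hm h) (cube_unique_dvd h1 hm' h.symm)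

theorem div_cube {b1 m : O} (hm : Primary m) : b1 * m ^ 3 / m ^ 3 = b1 :=
  mul_div_cancel_right₀ b1 (pow_ne_zero 3 hm.ne_zero)

/-- the value of `Θ` at `b₁ m³` -/
theorem Th_eq {b1 m : O} (h1 : InP b1) (hm : Primary m) :
    Th (b1 * m ^ 3) = (starRingEnd ℂ) (gt 1 b1) * (((N b1 : ℝ) ^ (-(1 / 6) : ℝ) : ℝ) : ℂ) := by
  have hb : b1 * m ^ 3 ≠ 0 := mul_ne_zero h1.ne_zero (pow_ne_zero 3 hm.ne_zero)
  have hfil : (dvs (b1 * m ^ 3)).filter (fun m' => ∃ b1', InP b1' ∧ b1 * m ^ 3 = b1' * m' ^ 3)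
      = {m} := by
    ext m'
    rw [mem_filter, mem_singleton, mem_dvs hb]
    constructor
    · rintro ⟨⟨hp, _⟩, b1', h1', he⟩
      exact (cube_unique h1 h1' hm hp he).symm
    · rintro rfl
      exact ⟨⟨hm, Dvd.dvd.mul_left (dvd_pow_self _ (by norm_num)) _⟩, b1, h1, rfl⟩
  rw [Th, hfil, sum_singleton, div_cube hm]

theorem Th_inP {b : O} (h : InP b) :
    Th b = (starRingEnd ℂ) (gt 1 b) * (((N b : ℝ) ^ (-(1 / 6) : ℝ) : ℝ) : ℂ) := by
  have := Th_eq h primary_one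
  rwa [one_pow, mul_one] at this

theorem Th_eq_zero {b : O} (h : ¬ ∃ b1 m, InP b1 ∧ Primary m ∧ b = b1 * m ^ 3) (hb : b ≠ 0) :
    Th b = 0 := by
  rw [Th, Finset.sum_eq_zero]
  intro m hm
  rw [mem_filter, mem_dvs hb] at hm
  obtain ⟨⟨hp, _⟩, b1, h1, he⟩ := hm
  exact (h ⟨b1, m, h1, hp, he⟩).elim

theorem norm_Th_le_one (b : O) (hb : b ≠ 0) : ‖Th b‖ ≤ 1 := by
  by_cases h : ∃ b1 m, InP b1 ∧ Primary m ∧ b = b1 * m ^ 3
  · obtain ⟨b1, m, h1, hm, rfl⟩ := h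
    rw [Th_eq h1 hm, norm_mul, RingHomIsometric.norm_map, norm_gt_one h1, one_mul,
      Complex.norm_real, Real.norm_eq_abs, abs_of_nonneg (by positivity)]
    exact Real.rpow_le_one_of_one_le_of_nonpos (one_le_N h1.ne_zero) (by norm_num)
  · rw [Th_eq_zero h hb, norm_zero]; exact zero_le_one

/-- Reindexing: a sum over primary `b` of norm `≤ Y` against a function supported on
`b = b₁ m³` becomes a double sum. -/
theorem sum_cube_reindex (Y : ℝ) (F : O → O → ℂ) (G : O → ℂ)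
    (hF : ∀ b1 m, InP b1 → Primary m → G (b1 * m ^ 3) = F m b1)
    (h0 : ∀ b, Primary b → (¬ ∃ b1 m, InP b1 ∧ Primary m ∧ b = b1 * m ^ 3) → G b = 0)
    (hY : ∀ b1 m, InP b1 → Primary m → Y < (N (b1 * m ^ 3) : ℝ) → F m b1 = 0) :
    ∑ b ∈ PB Y, G b = ∑ m ∈ PB Y, ∑ b1 ∈ SPB Y, F m b1 := by
  rw [← sum_product']
  symm
  rw [← sum_filter_add_sum_filter_not (PB Y ×ˢ SPB Y)
    (fun p => (N (p.2 * p.1 ^ 3) : ℝ) ≤ Y)]
  have hz : ∑ p ∈ (PB Y ×ˢ SPB Y).filter (fun p => ¬ (N (p.2 * p.1 ^ 3) : ℝ) ≤ Y),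
      F p.1 p.2 = 0 := by
    refine sum_eq_zero fun p hp => ?_
    rw [mem_filter, mem_product, mem_PB, mem_SPB_iff, not_le] at hp
    exact hY _ _ hp.1.2.1 hp.1.1.1 hp.2
  rw [hz, add_zero]
  rw [← sum_filter_add_sum_filter_not (PB Y)
    (fun b => ∃ b1 m, InP b1 ∧ Primary m ∧ b = b1 * m ^ 3)]
  have hz2 : ∑ b ∈ (PB Y).filter (fun b => ¬ ∃ b1 m, InP b1 ∧ Primary m ∧ b = b1 * m ^ 3),
      G b = 0 := by
    refine sum_eq_zero fun b hb => ?_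
    rw [mem_filter, mem_PB] at hb
    exact h0 b hb.1.1 hb.2
  rw [hz2, add_zero]
  refine sum_bij (fun p _ => p.2 * p.1 ^ 3) ?_ ?_ ?_ ?_
  · intro p hp
    rw [mem_filter, mem_product, mem_PB, mem_SPB_iff] at hp
    rw [mem_filter, mem_PB]
    exact ⟨⟨hp.1.2.1.1.mul (hp.1.1.1.pow 3), hp.2⟩, p.2, p.1, hp.1.2.1, hp.1.1.1, rfl⟩
  · intro p hp q hq he
    rw [mem_filter, mem_product, mem_PB, mem_SPB_iff] at hp hq
    have e1 : p.1 = q.1 := cube_unique hp.1.2.1 hq.1.2.1 hp.1.1.1 hq.1.1.1 he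
    simp only [e1] at he
    have e2 : p.2 = q.2 := mul_right_cancel₀ (pow_ne_zero 3 hq.1.1.1.ne_zero) he
    exact Prod.ext e1 e2
  · intro b hb
    rw [mem_filter, mem_PB] at hb
    obtain ⟨⟨hbp, hbY⟩, b1, m, h1, hm, rfl⟩ := hb
    refine ⟨(m, b1), ?_, rfl⟩
    rw [mem_filter, mem_product, mem_PB, mem_SPB_iff]
    have n1 : (N b1 : ℝ) ≤ N (b1 * m ^ 3) := by
      rw [N_mul, N_pow]; push_cast
      have a1 := one_le_N h1.ne_zero
      have a2 := one_le_N hm.ne_zero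
      have a3 : (1 : ℝ) ≤ (N m : ℝ) ^ 3 := one_le_pow₀ a2
      nlinarith
    have n2 : (N m : ℝ) ≤ N (b1 * m ^ 3) := by
      rw [N_mul, N_pow]; push_cast
      have a1 := one_le_N h1.ne_zero
      have a2 := one_le_N hm.ne_zero
      have a3 : (N m : ℝ) ≤ (N m : ℝ) ^ 3 := le_self_pow₀ a2 (by norm_num)
      nlinarith
    exact ⟨⟨⟨hm, n2.trans hbY⟩, h1, n1.trans hbY⟩, hbY⟩
  · intro p hp
    rw [mem_filter, mem_product, mem_PB, mem_SPB_iff] at hp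
    exact (hF _ _ hp.1.2.1 hp.1.1.1).symm

end Vale.Agent.P006.DISP
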